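import Vale.Agent.P281.H834.TM.GenL
import Vale.Agent.P281.H740.TM.Spec

/-!
# P281, project T-M (helper834): block T4 (`GenStmt`)
-/

open Set Filter Metric
open Vale.Agent.P281.H64.Thin (IsThinSet)
open Vale.Agent.P281.H64 (Cm)
open Vale.Agent.P281.H150.Gen
open scoped Topology ContDiff Manifold

noncomputable section

namespace Vale.Agent.P281.H834.TM

/-- **T4**: if the analytic set `A` contains no immersed ball of dimension `q + 1`, then the very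
general fibre of `f : X → Y`, `dim Y = q`, meets `A` in a countable set. -/
theorem gen : H740.TM.GenStmt := by
  intro n q X Y _ _ _ _ _ _ _ _ _ f A hf hA hno
  -- local statement
  have hloc : ∀ x : X, ∃ N ∈ 𝓝 x, SThin (Cm q) {y | ¬ (A ∩ N ∩ f ⁻¹' {y}).Countable} := by
    intro x
    set φ := chartAt (Cm n) x with hφx
    set ψ := chartAt (Cm q) (f x) with hψy
    set W : Set (Cm n) := φ.target ∩ φ.symm ⁻¹' (f ⁻¹' ψ.source) with hW
    have hWo : IsOpen W := by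
      refine ContinuousOn.isOpen_inter_preimage φ.continuousOn_symm φ.open_target ?_
      exact ψ.open_source.preimage hf.continuous
    set F : Cm n → Cm q := fun v => ψ (f (φ.symm v)) with hF
    have hFm : ∀ v ∈ W, ContMDiffAt 𝓘(ℂ, Cm n) 𝓘(ℂ, Cm q) ω (fun v => f (φ.symm v)) v :=
      fun v hv => ContMDiffAt.comp v (hf _) (holAt_symm hv.1)
    have hFa : ∀ v ∈ W, AnalyticAt ℂ F v := by
      intro v hv
      have h1 : ContMDiffAt 𝓘(ℂ, Cm n) 𝓘(ℂ, Cm q) ω F v :=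
        ContMDiffAt.comp v (holAt_chart hv.2) (hFm v hv)
      exact (contMDiffAt_iff_contDiffAt.1 h1).analyticAt
    have hAn : AnIn W (φ.symm ⁻¹' A) := by
      intro v hv
      obtain ⟨U, ι, h, hU, hvU, hh, hAU⟩ := hA (φ.symm v)
      refine ⟨W ∩ φ.symm ⁻¹' U, ι, fun i w => h i (φ.symm w), ?_, ⟨hv, hvU⟩, ?_, ?_⟩
      · exact ContinuousOn.isOpen_inter_preimage
          (φ.continuousOn_symm.mono inter_subset_left) hWo hU
      · intro i w hw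
        have h1 : ContMDiffAt 𝓘(ℂ, Cm n) 𝓘(ℂ, ℂ) ω (fun w => h i (φ.symm w)) w :=
          ContMDiffAt.comp w (hh i _ hw.2) (holAt_symm hw.1.1)
        exact (contMDiffAt_iff_contDiffAt.1 h1).analyticAt
      · intro w hw
        exact hAU _ hw.2
    have hnoW : ∀ θ : Cm (q + 1) → Cm n, ¬ ∀ u ∈ ball (0 : Cm (q + 1)) 1,
        AnalyticAt ℂ θ u ∧ Function.Injective (fderiv ℂ θ u) ∧ θ u ∈ (φ.symm ⁻¹' A) ∩ W := by
      intro θ hθ
      refine hno (fun u => φ.symm (θ u)) fun u hu => ?_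
      obtain ⟨h1, h2, h3⟩ := hθ u hu
      have h4 : ContMDiffAt 𝓘(ℂ, Cm (q + 1)) 𝓘(ℂ, Cm n) ω θ u :=
        contMDiffAt_iff_contDiffAt.2 h1.contDiffAt
      have h5 : ContMDiffAt 𝓘(ℂ, Cm n) 𝓘(ℂ, Cm n) ω φ.symm (θ u) := holAt_symm h3.2.1
      have h6 : ContMDiffAt 𝓘(ℂ, Cm (q + 1)) 𝓘(ℂ, Cm n) ω (fun u => φ.symm (θ u)) u :=
        ContMDiffAt.comp u h5 h4
      refine ⟨h6, ?_, h3.1⟩
      -- `φ ∘ φ.symm ∘ θ = θ`
      have h7 : ContMDiffAt 𝓘(ℂ, Cm n) 𝓘(ℂ, Cm n) ω φ (φ.symm (θ u)) :=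
        holAt_chart (φ.map_target h3.2.1)
      have hn : (ω : WithTop ℕ∞) ≠ 0 := by simp
      have h8 : mfderiv 𝓘(ℂ, Cm (q + 1)) 𝓘(ℂ, Cm n) (fun u => φ (φ.symm (θ u))) u =
          (mfderiv 𝓘(ℂ, Cm n) 𝓘(ℂ, Cm n) φ (φ.symm (θ u))).comp
            (mfderiv 𝓘(ℂ, Cm (q + 1)) 𝓘(ℂ, Cm n) (fun u => φ.symm (θ u)) u) :=
        mfderiv_comp u (h7.mdifferentiableAt hn) (h6.mdifferentiableAt hn)
      have h9 : (fun u => φ (φ.symm (θ u))) =ᶠ[𝓝 u] θ := by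
        filter_upwards [h1.continuousAt.eventually (φ.open_target.eventually_mem h3.2.1)] with
          u' hu'
        exact φ.right_inv hu'
      rw [h9.mfderiv_eq, mfderiv_eq_fderiv] at h8
      intro ξ ξ' hξ
      apply h2
      rw [h8]
      show mfderiv 𝓘(ℂ, Cm n) 𝓘(ℂ, Cm n) φ (φ.symm (θ u))
          (mfderiv 𝓘(ℂ, Cm (q + 1)) 𝓘(ℂ, Cm n) (fun u => φ.symm (θ u)) u ξ) =
        mfderiv 𝓘(ℂ, Cm n) 𝓘(ℂ, Cm n) φ (φ.symm (θ u))
          (mfderiv 𝓘(ℂ, Cm (q + 1)) 𝓘(ℂ, Cm n) (fun u => φ.symm (θ u)) u ξ')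
      rw [hξ]
    obtain ⟨H, hH, hcov⟩ := gen_loc hWo hFa hAn hnoW
    have hyt : ψ (f x) ∈ ψ.target := ψ.map_source (mem_chart_source _ _)
    obtain ⟨ρ, hρ, hρt⟩ := Metric.nhds_basis_closedBall.mem_iff.1 (ψ.open_target.mem_nhds hyt)
    refine ⟨{x' | x' ∈ φ.source ∧ f x' ∈ ψ.source ∧ ψ (f x') ∈ closedBall (ψ (f x)) ρ}, ?_, ?_⟩
    · have h1 : ∀ᶠ x' in 𝓝 x, f x' ∈ ψ.source :=
        hf.continuous.continuousAt.eventually (ψ.open_source.eventually_mem (mem_chart_source _ _))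
      have h2 : ContinuousAt (fun x' => ψ (f x')) x :=
        ContinuousAt.comp (g := ψ) (ψ.continuousAt (mem_chart_source _ _))
          hf.continuous.continuousAt
      exact (φ.open_source.eventually_mem (mem_chart_source _ _)).and
        (h1.and (h2.eventually (closedBall_mem_nhds _ hρ)))
    · refine ⟨fun k => ψ.symm '' (H k ∩ closedBall (ψ (f x)) ρ), fun k =>
        thin_chart (f x) (isCompact_closedBall _ _) hρt (hH k), ?_⟩
      intro y hy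
      by_contra hcon
      apply hy
      by_cases hne : (A ∩ {x' | x' ∈ φ.source ∧ f x' ∈ ψ.source ∧
          ψ (f x') ∈ closedBall (ψ (f x)) ρ} ∩ f ⁻¹' {y}).Nonempty
      swap
      · rw [not_nonempty_iff_eq_empty.1 hne]; exact countable_empty
      obtain ⟨x₁, ⟨-, -, hx2, hx3⟩, hx4⟩ := hne
      have hx4 : f x₁ = y := hx4
      rw [hx4] at hx2 hx3
      have h1 : {z | z ∈ (φ.symm ⁻¹' A) ∩ W ∧ F z = ψ y}.Countable := by
        by_contra h2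
        obtain ⟨k, hk⟩ := mem_iUnion.1 (hcov h2)
        exact hcon (mem_iUnion.2 ⟨k, ψ y, ⟨hk, hx3⟩, ψ.left_inv hx2⟩)
      refine (h1.image φ.symm).mono ?_
      rintro x' ⟨⟨hx'A, hx'1, hx'2, hx'3⟩, hx'4⟩
      have hx'4 : f x' = y := hx'4
      have h2 : φ.symm (φ x') = x' := φ.left_inv hx'1
      refine ⟨φ x', ⟨⟨?_, φ.map_source hx'1, ?_⟩, ?_⟩, h2⟩
      · show φ.symm (φ x') ∈ A
        rw [h2]; exact hx'A
      · show f (φ.symm (φ x')) ∈ ψ.source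
        rw [h2]; exact hx'2
      · show ψ (f (φ.symm (φ x'))) = ψ y
        rw [h2, hx'4]
  choose N hN hS using hloc
  obtain ⟨t, ht⟩ := CompactSpace.elim_nhds_subcover N hN
  obtain ⟨H, hH, hcov⟩ := SThin.iUnion
    (S := fun x : t => {y | ¬ (A ∩ N x ∩ f ⁻¹' {y}).Countable}) fun x => hS x
  refine ⟨H, hH, fun y hy => ?_⟩
  have h1 : ∀ x : t, (A ∩ N x ∩ f ⁻¹' {y}).Countable := by
    intro x
    by_contra h2
    obtain ⟨k, hk⟩ := mem_iUnion.1 (hcov (mem_iUnion.2 ⟨x, h2⟩))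
    exact hy k hk
  refine (countable_iUnion h1).mono ?_
  rintro x ⟨hxA, hxy⟩
  have h2 : x ∈ ⋃ y ∈ t, N y := by rw [ht]; trivial
  obtain ⟨x', hx', hxx'⟩ := mem_iUnion₂.1 h2
  exact mem_iUnion.2 ⟨⟨x', hx'⟩, ⟨hxA, hxx'⟩, hxy⟩

end Vale.Agent.P281.H834.TM
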