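import Vale.Agent.P281.H834.TM.Slice

/-!
# P281, project T-M, block T4 (helper834), part 2: local form

`A` an analytic subset of the open set `W` of `ℂ^n` which contains no immersed ball of dimension
`q + 1`, `F : W → ℂ^q` holomorphic: `A ∩ F⁻¹(y)` is countable for very general `y`.
-/

open Set Filter Metric
open Vale.Agent.P281.H64.Thin (IsThinSet)
open Vale.Agent.P281.H64 (Cm)
open Vale.Agent.P281.H150.Gen
open scoped Topology ContDiff Manifold

noncomputable section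

namespace Vale.Agent.P281.H834.TM

/-- A submersive curve of points of `A` contains an immersed ball. -/
theorem exists_imm {n m k : ℕ} {W A : Set (Cm n)} {G : Cm n → Cm k}
    (hG : ∀ z ∈ W, AnalyticAt ℂ G z) {φ : Cm m → Cm n}
    (hφ : ∀ v ∈ ball (0 : Cm m) 1, AnalyticAt ℂ φ v ∧ φ v ∈ A ∩ W) {v : Cm m}
    (hv : v ∈ ball (0 : Cm m) 1)
    (hs : Function.Surjective (fderiv ℂ (fun v => G (φ v)) v)) :
    ∃ ψ : Cm k → Cm n, ∀ u ∈ ball (0 : Cm k) 1,
      AnalyticAt ℂ ψ u ∧ Function.Injective (fderiv ℂ ψ u) ∧ ψ u ∈ A ∩ W := by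
  have hGφ : ∀ v ∈ ball (0 : Cm m) 1, AnalyticAt ℂ (fun v => G (φ v)) v := fun v hv =>
    AnalyticAt.fun_comp (g := G) (f := φ) (hG _ (hφ v hv).2.2) (hφ v hv).1
  obtain ⟨L₀, hL₀⟩ := LinearMap.exists_rightInverse_of_surjective
    ((fderiv ℂ (fun v => G (φ v)) v).toLinearMap) (LinearMap.range_eq_top.2 hs)
  set L : Cm k →L[ℂ] Cm m := LinearMap.toContinuousLinearMap L₀ with hL
  have hL1 : (fderiv ℂ (fun v => G (φ v)) v).comp L = ContinuousLinearMap.id ℂ (Cm k) := by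
    ext1 u
    exact LinearMap.congr_fun hL₀ u
  -- the composition stays near the identity
  have hcont : ContinuousAt (fun v' => (fderiv ℂ (fun v => G (φ v)) v').comp L) v := by
    have h1 : ContinuousAt (fun v' => fderiv ℂ (fun v => G (φ v)) v') v :=
      (hGφ v hv).fderiv.continuousAt
    exact h1.clm_comp continuousAt_const
  have hnear : ∀ᶠ v' in 𝓝 v, ‖(fderiv ℂ (fun v => G (φ v)) v').comp L -
      ContinuousLinearMap.id ℂ (Cm k)‖ < 1 := by
    have h1 := hcont.sub (continuousAt_const (y := ContinuousLinearMap.id ℂ (Cm k)))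
    have h2 := h1.norm
    have h3 : ‖(fderiv ℂ (fun v => G (φ v)) v).comp L - ContinuousLinearMap.id ℂ (Cm k)‖ < 1 := by
      rw [hL1, sub_self, norm_zero]; exact one_pos
    exact h2.eventually (gt_mem_nhds h3)
  obtain ⟨ρ, hρ, hB⟩ := Metric.eventually_nhds_iff_ball.1
    (hnear.and (isOpen_ball.eventually_mem hv))
  obtain ⟨C, hC, hCL⟩ : ∃ C : ℝ, 0 < C ∧ ∀ y, ‖L y‖ ≤ C * ‖y‖ :=
    ⟨‖L‖ + 1, by positivity, fun y => (L.le_opNorm y).trans
      (mul_le_mul_of_nonneg_right (by linarith) (norm_nonneg _))⟩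
  set δ : ℂ := ((ρ / C : ℝ) : ℂ) with hδ
  have hρC : 0 < ρ / C := by positivity
  have hδ0 : δ ≠ 0 := by
    rw [hδ]; exact_mod_cast hρC.ne'
  have hδn : ‖δ‖ = ρ / C := by
    rw [hδ, Complex.norm_real, Real.norm_of_nonneg hρC.le]
  have hmem : ∀ u ∈ ball (0 : Cm k) 1, v + δ • L u ∈ ball v ρ := by
    intro u hu
    rw [mem_ball, dist_eq_norm]
    rw [mem_ball, dist_zero_right] at hu
    rw [add_sub_cancel_left, norm_smul, hδn]
    calc ρ / C * ‖L u‖ ≤ ρ / C * (C * ‖u‖) := by gcongr; exact hCL u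
      _ = ρ * ‖u‖ := by field_simp
      _ < ρ * 1 := by gcongr
      _ = ρ := mul_one ρ
  refine ⟨fun u => φ (v + δ • L u), fun u hu => ?_⟩
  obtain ⟨h1, h2⟩ := hB _ (hmem u hu)
  have hda : AnalyticAt ℂ (fun u => v + δ • L u) u := by
    have h0 : AnalyticAt ℂ (fun u => (δ • L) u) u := (δ • L).analyticAt u
    exact analyticAt_const.add h0
  have hd : HasFDerivAt (fun u => v + δ • L u) (δ • L) u :=
    (L.hasFDerivAt.const_smul δ).const_add v
  refine ⟨AnalyticAt.fun_comp (g := φ) (f := fun u => v + δ • L u) (hφ _ h2).1 hda, ?_,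
    (hφ _ h2).2⟩
  have h3 : fderiv ℂ (fun u => φ (v + δ • L u)) u =
      (fderiv ℂ φ (v + δ • L u)).comp (δ • L) :=
    ((hφ _ h2).1.differentiableAt.hasFDerivAt.comp u hd).fderiv
  have h4 : fderiv ℂ (fun v => G (φ v)) (v + δ • L u) =
      (fderiv ℂ G (φ (v + δ • L u))).comp (fderiv ℂ φ (v + δ • L u)) :=
    ((hG _ (hφ _ h2).2.2).differentiableAt.hasFDerivAt.comp _
      (hφ _ h2).1.differentiableAt.hasFDerivAt).fderiv
  rw [h3]
  rw [injective_iff_map_eq_zero]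
  intro x hx
  have h5 : fderiv ℂ φ (v + δ • L u) (L x) = 0 := by
    have h6 : δ • fderiv ℂ φ (v + δ • L u) (L x) = 0 := by
      rw [← map_smul]; exact hx
    exact (smul_eq_zero.1 h6).resolve_left hδ0
  have h7 : ((fderiv ℂ (fun v => G (φ v)) (v + δ • L u)).comp L) x = 0 := by
    rw [h4]
    show fderiv ℂ G (φ (v + δ • L u)) (fderiv ℂ φ (v + δ • L u) (L x)) = 0
    rw [h5, map_zero]
  by_contra hx0
  have hxp : 0 < ‖x‖ := norm_pos_iff.2 hx0
  have h8 : ‖x‖ ≤ ‖(fderiv ℂ (fun v => G (φ v)) (v + δ • L u)).comp L -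
      ContinuousLinearMap.id ℂ (Cm k)‖ * ‖x‖ := by
    have h9 := ((fderiv ℂ (fun v => G (φ v)) (v + δ • L u)).comp L -
      ContinuousLinearMap.id ℂ (Cm k)).le_opNorm x
    rw [sub_apply, h7, zero_sub, norm_neg] at h9
    exact h9
  nlinarith

/-- **Local form.** -/
theorem gen_loc {n q : ℕ} {W A : Set (Cm n)} {F : Cm n → Cm q} (hW : IsOpen W)
    (hF : ∀ z ∈ W, AnalyticAt ℂ F z) (hA : AnIn W A)
    (h : ∀ ψ : Cm (q + 1) → Cm n, ¬ ∀ u ∈ ball (0 : Cm (q + 1)) 1,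
      AnalyticAt ℂ ψ u ∧ Function.Injective (fderiv ℂ ψ u) ∧ ψ u ∈ A ∩ W) :
    SThin (Cm q) {y | ¬ {z | z ∈ A ∩ W ∧ F z = y}.Countable} := by
  -- the maps `(F, z_j)`
  have hG : ∀ j : Fin n, ∀ z ∈ W, AnalyticAt ℂ (fun z : Cm n => sn (F z) (z j)) z := by
    intro j z hz
    have h1 : AnalyticAt ℂ (fun z => inj q (F z)) z :=
      AnalyticAt.fun_comp (g := inj q) (f := F) ((inj q).analyticAt _) (hF z hz)
    have h2 : AnalyticAt ℂ (fun z : Cm n => z j) z :=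
      (ContinuousLinearMap.proj (R := ℂ) (φ := fun _ : Fin n => ℂ) j).analyticAt z
    exact h1.add (h2.smul analyticAt_const)
  have hN : ∀ j : Fin n, NoSub W A (fun z : Cm n => sn (F z) (z j)) := by
    intro j
    refine noSub_of (hG j) fun m φ hφ v hv hs => ?_
    obtain ⟨ψ, hψ⟩ := exists_imm (hG j) hφ hv hs
    exact h ψ hψ
  have hS : ∀ j : Fin n, SThin (Cm (q + 1)) ((fun z : Cm n => sn (F z) (z j)) '' (A ∩ W)) :=
    fun j => core (q + 1) _ (Cm n) rfl W A _ hW (hG j) hA (hN j)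
  choose H hH hcov using hS
  have hB : SThin (Cm q) (⋃ a : Fin n × ℕ, Bad (H a.1 a.2)) :=
    SThin.iUnion fun a => sthin_bad (hH a.1 a.2)
  refine hB.mono ?_
  intro y hy
  by_contra hcon
  apply hy
  have h1 : ∀ j : Fin n, {ζ : ℂ | ∃ z ∈ A ∩ W, F z = y ∧ z j = ζ}.Countable := by
    intro j
    have h2 : {w : Cm (q + 1) | w ∈ (⋃ k, H j k) ∧ pr q w = y}.Countable := by
      by_contra h3
      have h4 : y ∈ Bad (⋃ k, H j k) := h3
      obtain ⟨k, hk⟩ := mem_iUnion.1 (bad_iUnion _ h4)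
      exact hcon (mem_iUnion.2 ⟨(j, k), hk⟩)
    refine (h2.image fun w => w (Fin.last q)).mono ?_
    rintro ζ ⟨z, hz, hFz, hzj⟩
    refine ⟨sn (F z) (z j), ⟨hcov j ⟨z, hz, rfl⟩, ?_⟩, ?_⟩
    · rw [pr_sn]; exact hFz
    · show sn (F z) (z j) (Fin.last q) = ζ
      rw [sn_last]; exact hzj
  refine (Set.countable_pi h1).mono ?_
  rintro z ⟨hz, hFz⟩ j
  exact ⟨z, hz, hFz, rfl⟩

end Vale.Agent.P281.H834.TM
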