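import Vale.Agent.P281.H150.Gen.Img

/-!
# P281, project T-M, block T4 (helper834), part 1: slices of thin sets

For a thin set `T` of `ℂ^(q+1)`, the very general slice `{w ∈ T : (w_1, ..., w_q) = y}` is countable.
-/

open Set Filter Metric
open Vale.Agent.P281.H64.Thin (IsThinSet)
open Vale.Agent.P281.H64 (Cm)
open Vale.Agent.P281.H150.Gen
open scoped Topology ContDiff Manifold

noncomputable section

namespace Vale.Agent.P281.H834.TM

/-- The zeros of a holomorphic function on a disc. -/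
theorem zeros_countable {g : ℂ → ℂ} {c : ℂ} {r : ℝ} (hg : ∀ z ∈ ball c r, AnalyticAt ℂ g z)
    {z₀ : ℂ} (hz₀ : z₀ ∈ ball c r) (hne : g z₀ ≠ 0) :
    {z | z ∈ ball c r ∧ g z = 0}.Countable := by
  set S : Set ℂ := {z | z ∈ ball c r ∧ g z = 0} with hS
  have hd : DiscreteTopology S := by
    rw [discreteTopology_subtype_iff]
    intro x hx
    rw [← disjoint_iff, Filter.disjoint_principal_right]
    rcases (hg x hx.1).eventually_eq_zero_or_eventually_ne_zero with h | h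
    · exfalso
      apply hne
      have h1 : AnalyticOnNhd ℂ g (ball c r) := fun z hz => hg z hz
      exact h1.eqOn_zero_of_preconnected_of_eventuallyEq_zero
        (convex_ball c r).isPreconnected hx.1 h hz₀
    · filter_upwards [h] with z hz hzS
      exact hz hzS.2
  have := hd
  exact countable_coe_iff.1 (countable_of_Lindelof_of_discrete (X := S))

/-- `y ↦ (y, 0)`. -/
def inj (q : ℕ) : Cm q →L[ℂ] Cm (q + 1) :=
  ContinuousLinearMap.pi fun i => Fin.lastCases (motive := fun _ => Cm q →L[ℂ] ℂ) 0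
    (fun j => ContinuousLinearMap.proj (R := ℂ) (φ := fun _ : Fin q => ℂ) j) i

/-- `(y, ζ)`. -/
def sn {q : ℕ} (y : Cm q) (ζ : ℂ) : Cm (q + 1) := inj q y + ζ • Pi.single (Fin.last q) (1 : ℂ)

theorem inj_last {q : ℕ} (y : Cm q) : inj q y (Fin.last q) = 0 := by
  show (Fin.lastCases (motive := fun _ => Cm q →L[ℂ] ℂ) 0
    (fun j => ContinuousLinearMap.proj (R := ℂ) (φ := fun _ : Fin q => ℂ) j) (Fin.last q)) y = 0
  rw [Fin.lastCases_last]
  rfl

theorem inj_cast {q : ℕ} (y : Cm q) (j : Fin q) : inj q y j.castSucc = y j := by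
  show (Fin.lastCases (motive := fun _ => Cm q →L[ℂ] ℂ) 0
    (fun j => ContinuousLinearMap.proj (R := ℂ) (φ := fun _ : Fin q => ℂ) j) j.castSucc) y = y j
  rw [Fin.lastCases_castSucc]
  rfl

theorem sn_last {q : ℕ} (y : Cm q) (ζ : ℂ) : sn y ζ (Fin.last q) = ζ := by
  unfold sn
  rw [Pi.add_apply, inj_last, Pi.smul_apply, Pi.single_eq_same]
  simp

theorem sn_cast {q : ℕ} (y : Cm q) (ζ : ℂ) (j : Fin q) : sn y ζ j.castSucc = y j := by
  unfold sn
  rw [Pi.add_apply, inj_cast, Pi.smul_apply, Pi.single_eq_of_ne (Fin.castSucc_lt_last j).ne]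
  simp

theorem pr_sn {q : ℕ} (y : Cm q) (ζ : ℂ) : pr q (sn y ζ) = y := by
  funext j
  rw [pr_apply, sn_cast]

theorem sn_pr {q : ℕ} (w : Cm (q + 1)) : sn (pr q w) (w (Fin.last q)) = w := by
  funext i
  refine Fin.lastCases ?_ (fun j => ?_) i
  · rw [sn_last]
  · rw [sn_cast, pr_apply]

theorem sn_mem {q : ℕ} {w₀ : Cm (q + 1)} {r : ℝ} {y : Cm q} {ζ : ℂ}
    (hy : y ∈ ball (pr q w₀) r) (hζ : ζ ∈ ball (w₀ (Fin.last q)) r) : sn y ζ ∈ ball w₀ r := by
  have hr : 0 < r := pos_of_mem_ball hy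
  rw [mem_ball, dist_pi_lt_iff hr]
  intro i
  refine Fin.lastCases ?_ (fun j => ?_) i
  · rw [sn_last]; exact hζ
  · rw [sn_cast]
    exact (dist_pi_lt_iff hr).1 hy j

theorem pr_mem {q : ℕ} {w w₀ : Cm (q + 1)} {r : ℝ} (h : w ∈ ball w₀ r) :
    pr q w ∈ ball (pr q w₀) r ∧ w (Fin.last q) ∈ ball (w₀ (Fin.last q)) r := by
  have hr : 0 < r := pos_of_mem_ball h
  rw [mem_ball, dist_pi_lt_iff hr] at h
  exact ⟨(dist_pi_lt_iff hr).2 fun j => h j.castSucc, h (Fin.last q)⟩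

/-- The `y` with an uncountable slice. -/
def Bad {q : ℕ} (T : Set (Cm (q + 1))) : Set (Cm q) := {y | ¬ {w | w ∈ T ∧ pr q w = y}.Countable}

theorem bad_iUnion {q : ℕ} {ι : Type} [Countable ι] (T : ι → Set (Cm (q + 1))) :
    Bad (⋃ i, T i) ⊆ ⋃ i, Bad (T i) := by
  intro y hy
  by_contra hcon
  apply hy
  have h1 : ∀ i, {w | w ∈ T i ∧ pr q w = y}.Countable := by
    intro i
    by_contra h
    exact hcon (mem_iUnion.2 ⟨i, h⟩)
  refine (countable_iUnion h1).mono ?_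
  rintro w ⟨hw, hwy⟩
  obtain ⟨i, hi⟩ := mem_iUnion.1 hw
  exact mem_iUnion.2 ⟨i, hi, hwy⟩

theorem bad_mono {q : ℕ} {T T' : Set (Cm (q + 1))} (h : T ⊆ T') : Bad T ⊆ Bad T' := by
  intro y hy hc
  have h1 : {w | w ∈ T' ∧ pr q w = y}.Countable := hc
  refine hy (h1.mono ?_)
  rintro w ⟨hw1, hw2⟩
  exact ⟨h hw1, hw2⟩

/-- Near a point. -/
theorem bad_loc {q : ℕ} {T : Set (Cm (q + 1))} (hT : IsThinSet (Cm (q + 1)) T) (w₀ : Cm (q + 1)) :
    ∃ N ∈ 𝓝 w₀, SThin (Cm q) (Bad (T ∩ N)) := by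
  obtain ⟨g, hg, hne, hs⟩ := hT.2 w₀
  have hga : AnalyticAt ℂ g w₀ := analyticAt_of_holAt hg
  obtain ⟨r, hr, hball⟩ := Metric.eventually_nhds_iff_ball.1 (hga.eventually_analyticAt.and hs)
  obtain ⟨w₁, hw₁, hgw₁⟩ : ∃ w₁ ∈ ball w₀ r, g w₁ ≠ 0 := by
    by_contra hcon
    push Not at hcon
    exact hne (Filter.mem_of_superset (ball_mem_nhds w₀ hr) hcon)
  set ζ₀ := w₁ (Fin.last q) with hζ₀
  have hζ : ζ₀ ∈ ball (w₀ (Fin.last q)) r := (pr_mem hw₁).2
  set k : Cm q → ℂ := fun y => g (sn y ζ₀) with hk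
  have hka : ∀ y ∈ ball (pr q w₀) r, AnalyticAt ℂ k y := by
    intro y hy
    have h1 : AnalyticAt ℂ (fun y : Cm q => sn y ζ₀) y :=
      ((inj q).analyticAt y).add analyticAt_const
    exact AnalyticAt.fun_comp (g := g) (f := fun y : Cm q => sn y ζ₀) (hball _ (sn_mem hy hζ)).1 h1
  have hk1 : k (pr q w₁) ≠ 0 := by
    show g (sn (pr q w₁) (w₁ (Fin.last q))) ≠ 0
    rw [sn_pr]; exact hgw₁
  have hcb : closedBall (pr q w₀) (r / 2) ⊆ ball (pr q w₀) r :=
    closedBall_subset_ball (by linarith)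
  set K : Set (Cm q) := {y | y ∈ closedBall (pr q w₀) (r / 2) ∧ k y = 0} with hK
  have hKc : IsClosed K := by
    have h1 : ContinuousOn k (closedBall (pr q w₀) (r / 2)) := fun y hy =>
      (hka y (hcb hy)).continuousAt.continuousWithinAt
    have h2 := h1.preimage_isClosed_of_isClosed isClosed_closedBall isClosed_singleton (t := {0})
    exact h2
  have hKt : IsThinSet (Cm q) K := by
    refine thin_of_isClosed hKc fun y hy => ⟨k, holAt_of_analyticAt (hka y (hcb hy.1)), ?_, ?_⟩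
    · intro h
      apply hk1
      have h1 : AnalyticOnNhd ℂ k (ball (pr q w₀) r) := fun z hz => hka z hz
      exact h1.eqOn_zero_of_preconnected_of_eventuallyEq_zero
        (convex_ball _ r).isPreconnected (hcb hy.1) h (pr_mem hw₁).1
    · exact Filter.Eventually.of_forall fun z hz => hz.2
  refine ⟨ball w₀ (r / 2), ball_mem_nhds _ (by linarith), SThin.of_thin hKt ?_⟩
  intro y hy
  obtain ⟨w, hwT, hwy⟩ : {w | w ∈ T ∩ ball w₀ (r / 2) ∧ pr q w = y}.Nonempty := by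
    rw [nonempty_iff_ne_empty]
    intro h
    exact hy (by rw [h]; exact countable_empty)
  have hyb : y ∈ ball (pr q w₀) (r / 2) := by
    rw [← hwy]; exact (pr_mem hwT.2).1
  refine ⟨ball_subset_closedBall hyb, ?_⟩
  by_contra hky
  apply hy
  have hyr : y ∈ ball (pr q w₀) r := ball_subset_ball (by linarith) hyb
  have h1 : ∀ ζ ∈ ball (w₀ (Fin.last q)) r, AnalyticAt ℂ (fun ζ => g (sn y ζ)) ζ := by
    intro ζ hζ
    have h2 : AnalyticAt ℂ (fun ζ : ℂ => sn y ζ) ζ :=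
      analyticAt_const.add (analyticAt_id.smul analyticAt_const)
    exact AnalyticAt.fun_comp (g := g) (f := fun ζ : ℂ => sn y ζ) (hball _ (sn_mem hyr hζ)).1 h2
  have h2 := zeros_countable h1 hζ hky
  refine (h2.image (sn y)).mono ?_
  rintro v ⟨⟨hvT, hvb⟩, hvy⟩
  have hvr : v ∈ ball w₀ r := ball_subset_ball (by linarith) hvb
  have h3 : sn y (v (Fin.last q)) = v := by rw [← hvy, sn_pr]
  refine ⟨v (Fin.last q), ⟨(pr_mem hvr).2, ?_⟩, h3⟩
  show g (sn y (v (Fin.last q))) = 0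
  rw [h3]
  exact (hball v hvr).2 hvT

/-- **The very general slice of a thin set is countable.** -/
theorem sthin_bad {q : ℕ} {T : Set (Cm (q + 1))} (hT : IsThinSet (Cm (q + 1)) T) :
    SThin (Cm q) (Bad T) := by
  choose N hN hS using bad_loc hT
  obtain ⟨t, htc, hcov⟩ := TopologicalSpace.countable_cover_nhds hN
  have := htc.to_subtype
  refine (SThin.iUnion (S := fun x : t => Bad (T ∩ N x)) fun x => hS x).mono ?_
  refine (bad_mono ?_).trans (bad_iUnion _)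
  intro w hw
  have h1 : w ∈ ⋃ x ∈ t, N x := by rw [hcov]; trivial
  obtain ⟨x, hx, hwx⟩ := mem_iUnion₂.1 h1
  exact mem_iUnion.2 ⟨⟨x, hx⟩, hw, hwx⟩

end Vale.Agent.P281.H834.TM
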